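import Vale.Agent.P108.Sk.Blocks
import Vale.Agent.P108.Cmb.Runs

/-! # P108, block [LONG] -/

open Set

namespace Vale.Agent.P108.Sk

open P108C

/-- **[LONG]** -/
theorem longCl : LongCl := by
  constructor
  · rintro c n s u w S hc ⟨h1, h2⟩
    refine ⟨Cl_Ico_subset hc h1, ?_⟩
    have hB : Long s (Ico u w) S := fun i hi => by
      obtain ⟨b, h3, h4, h5⟩ := h2 i hi
      exact ⟨b, h3, h4, fun t h6 h7 h8 => h5 t h6 h7 h8.1 h8.2⟩
    have h3 : Long s (Ico u w) (Cl c n S) :=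
      Long.of_conn (subset_Cl _ _ _) (fun _ hi => exists_basic hc hi) hB
    intro i hi
    obtain ⟨b, h4, h5, h6⟩ := h3 i hi
    exact ⟨b, h4, h5, fun t h7 h8 h9 h10 => h6 t h7 h8 ⟨h9, h10⟩⟩
  · intro c s u w S hc hS
    have hB : Long s univ S := fun i hi => by
      obtain ⟨b, h3, h4, h5⟩ := hS i hi
      exact ⟨b, h3, h4, fun t h6 h7 _ => h5 t h6 h7⟩
    have h3 : Long s (Ico u w) (ClInf c S ∩ Ico u w) := (Long.clInf hc hB).trace
    refine ⟨inter_subset_right, fun i hi => ?_⟩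
    obtain ⟨b, h4, h5, h6⟩ := h3 i hi
    exact ⟨b, h4, h5, fun t h7 h8 h9 h10 => h6 t h7 h8 ⟨h9, h10⟩⟩

end Vale.Agent.P108.Sk
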